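import Mathlib

set_option autoImplicit false

/-!
# P181, SZ, A2: the choice of the numbers for the finite assembly

`q = a ^ δ`, `X = ⌊q⌋`, `Z = ⌊√w⌋`. Everything is a polynomial inequality in `q` and `A = a`.
-/

namespace Vale.Agent.P181.SZA2

lemma q_mul {q : ℝ} (hq : 1 ≤ q) (c : ℝ) (i j : ℕ) (hij : i < j) (hc : c ≤ q) :
    c * q ^ i ≤ q ^ j := by
  calc c * q ^ i ≤ q * q ^ i := mul_le_mul_of_nonneg_right hc (by positivity)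
    _ = q ^ (i + 1) := (pow_succ' q i).symm
    _ ≤ q ^ j := pow_le_pow_right₀ hq hij

lemma Aq_le {A q : ℝ} (hA : 0 ≤ A) (hq : 1 ≤ q) (c : ℝ) (i j : ℕ) (hij : i < j) (hc : c ≤ q) :
    c * (A * q ^ i) ≤ A * q ^ j := by
  calc c * (A * q ^ i) = A * (c * q ^ i) := by ring
    _ ≤ A * q ^ j := mul_le_mul_of_nonneg_left (q_mul hq c i j hij hc) hA

/-- the third row -/
lemma l2_ge {A q b R l2 cR : ℝ} (hA : 1 ≤ A) (hq : 1000 ≤ q) (hR : 0 ≤ R) (hqR : 1000 * R ≤ q)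
    (hb : A * q ^ 80 ≤ b) (h1 : b < R * l2 + cR + 3 * A) (h2 : cR ≤ A * q ^ 16) :
    A * q ^ 79 ≤ l2 := by
  have hq1 : 1 ≤ q := by linarith
  have hA0 : 0 ≤ A := by linarith
  by_contra hlt
  rw [not_le] at hlt
  have e1 : R * l2 ≤ R * (A * q ^ 79) := mul_le_mul_of_nonneg_left hlt.le hR
  have e2 := Aq_le hA0 hq1 (4 * R) 79 80 (by norm_num) (by linarith)
  have e3 := Aq_le hA0 hq1 4 16 80 (by norm_num) (by linarith)
  have e4 := Aq_le hA0 hq1 12 0 80 (by norm_num) (by linarith)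
  have e5 : 0 < A * q ^ 80 := by positivity
  rw [pow_zero, mul_one] at e4
  linarith

/-- the second row -/
lemma l1_le {A q l1 l2 : ℝ} (hA : 1 ≤ A) (hq : 1000 ≤ q) (hAq : q ^ 80 ≤ A)
    (hl2 : A * q ^ 79 ≤ l2) (h4 : l2 ≤ l1)
    (h3 : min l1 (A ^ 2) * min l2 (A ^ 2) < A ^ 3 * q ^ 11) : l1 * q ^ 68 ≤ A ^ 2 := by
  have hq1 : 1 ≤ q := by linarith
  have hA0 : 0 < A := by linarith
  have hAA : A * q ^ 79 ≤ A ^ 2 := by
    calc A * q ^ 79 ≤ A * q ^ 80 :=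
          mul_le_mul_of_nonneg_left (pow_le_pow_right₀ hq1 (by norm_num)) hA0.le
      _ ≤ A * A := mul_le_mul_of_nonneg_left hAq hA0.le
      _ = A ^ 2 := by ring
  have hl10 : 0 ≤ l1 := by
    have : 0 < A * q ^ 79 := by positivity
    linarith
  have hl1 : l1 ≤ A ^ 2 := by
    by_contra hlt
    rw [not_le] at hlt
    rw [min_eq_right hlt.le] at h3
    have e1 : A * q ^ 79 ≤ min l2 (A ^ 2) := le_min hl2 hAA
    have e2 : A ^ 2 * (A * q ^ 79) < A ^ 3 * q ^ 11 :=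
      lt_of_le_of_lt (mul_le_mul_of_nonneg_left e1 (by positivity)) h3
    have e3 : A ^ 3 * q ^ 11 ≤ A ^ 2 * (A * q ^ 79) := by
      calc A ^ 3 * q ^ 11 ≤ A ^ 3 * q ^ 79 :=
            mul_le_mul_of_nonneg_left (pow_le_pow_right₀ hq1 (by norm_num)) (by positivity)
        _ = A ^ 2 * (A * q ^ 79) := by ring
    linarith
  rw [min_eq_left hl1, min_eq_left (h4.trans hl1)] at h3
  have e2 : (A * q ^ 11) * (l1 * q ^ 68) ≤ (A * q ^ 11) * A ^ 2 := by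
    calc (A * q ^ 11) * (l1 * q ^ 68) = l1 * (A * q ^ 79) := by ring
      _ ≤ l1 * l2 := mul_le_mul_of_nonneg_left hl2 hl10
      _ ≤ A ^ 3 * q ^ 11 := h3.le
      _ = _ := by ring
  exact le_of_mul_le_mul_left e2 (by positivity)

/-- the number of cells below the first row -/
lemma w_le {A q R l1 cR w : ℝ} (hA : 1 ≤ A) (hq : 1000 ≤ q) (hqR : 1000 * R ≤ q)
    (hAq : q ^ 80 ≤ A) (hl10 : 0 ≤ l1) (hl1 : l1 * q ^ 68 ≤ A ^ 2) (h2 : cR ≤ A * q ^ 16)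
    (h6 : w ≤ R * l1 + cR) : w * q ^ 60 ≤ A ^ 2 := by
  have hq1 : 1 ≤ q := by linarith
  have hA0 : 0 ≤ A := by linarith
  have e2 : R * l1 * (2 * q ^ 60) ≤ A ^ 2 := by
    calc R * l1 * (2 * q ^ 60) = l1 * ((2 * R) * q ^ 60) := by ring
      _ ≤ l1 * q ^ 68 :=
        mul_le_mul_of_nonneg_left (q_mul hq1 _ 60 68 (by norm_num) (by linarith)) hl10
      _ ≤ A ^ 2 := hl1
  have e3 : cR * (2 * q ^ 60) ≤ A ^ 2 := by
    calc cR * (2 * q ^ 60) ≤ (A * q ^ 16) * (2 * q ^ 60) :=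
          mul_le_mul_of_nonneg_right h2 (by positivity)
      _ = A * (2 * q ^ 76) := by ring
      _ ≤ A * q ^ 80 :=
        mul_le_mul_of_nonneg_left (q_mul hq1 _ 76 80 (by norm_num) (by linarith)) hA0
      _ ≤ A * A := mul_le_mul_of_nonneg_left hAq hA0
      _ = A ^ 2 := by ring
  have e5 : w * q ^ 60 ≤ (R * l1 + cR) * q ^ 60 := mul_le_mul_of_nonneg_right h6 (by positivity)
  linarith

lemma Z_le {A q Z w : ℝ} (hA : 1 ≤ A) (hq : 1000 ≤ q) (hZ1 : Z ^ 2 ≤ w)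
    (hw : w * q ^ 60 ≤ A ^ 2) : Z * q ^ 30 ≤ A := by
  have e1 : (Z * q ^ 30) ^ 2 ≤ A ^ 2 := by
    calc (Z * q ^ 30) ^ 2 = Z ^ 2 * q ^ 60 := by ring
      _ ≤ w * q ^ 60 := mul_le_mul_of_nonneg_right hZ1 (by positivity)
      _ ≤ A ^ 2 := hw
  exact (abs_le_of_sq_le_sq' e1 (by linarith)).2

lemma Z_ge {A q Z w : ℝ} (hA : 1 ≤ A) (hq : 1000 ≤ q) (hAq : q ^ 80 ≤ A) (hZ0 : 0 ≤ Z)
    (hZ2 : w < (Z + 1) ^ 2) (hw : 2 * (A * q ^ 79) ≤ w) : q ^ 78 ≤ Z := by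
  have hq1 : 1 ≤ q := by linarith
  by_contra hlt
  rw [not_le] at hlt
  have e0 : 1 ≤ q ^ 78 := one_le_pow₀ hq1
  have e3 : (Z + 1) ^ 2 ≤ (2 * q ^ 78) ^ 2 := pow_le_pow_left₀ (by linarith) (by linarith) 2
  have e4 : (2 * q ^ 78) ^ 2 ≤ q ^ 159 := by
    calc (2 * q ^ 78) ^ 2 = 4 * q ^ 156 := by ring
      _ ≤ q ^ 159 := q_mul hq1 _ 156 159 (by norm_num) (by linarith)
  have e5 : q ^ 159 ≤ A * q ^ 79 := by
    calc q ^ 159 = q ^ 80 * q ^ 79 := by ring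
      _ ≤ A * q ^ 79 := mul_le_mul_of_nonneg_right hAq (by positivity)
  have e6 : 0 < A * q ^ 79 := by positivity
  linarith

lemma log_le {A q R X w : ℝ} (hq : 1000 ≤ q) (hR : 0 ≤ R) (hX : q / 2 ≤ X)
    (hw1 : 1 ≤ w) (hw : w * q ^ 60 ≤ A ^ 2) (hlog : 400 * R * Real.log A ≤ q) :
    100 * R * Real.log (w + 1) ≤ X := by
  have hq1 : 1 ≤ q := by linarith
  have e1 : w + 1 ≤ A ^ 2 := by
    have e2 := q_mul hq1 2 0 60 (by norm_num) (by linarith)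
    rw [pow_zero] at e2
    have e3 : w * 2 ≤ w * q ^ 60 := mul_le_mul_of_nonneg_left (by linarith) (by linarith)
    linarith
  have e2 : Real.log (w + 1) ≤ 2 * Real.log A := by
    calc Real.log (w + 1) ≤ Real.log (A ^ 2) := Real.log_le_log (by linarith) e1
      _ = 2 * Real.log A := by rw [Real.log_pow]; norm_num
  have e3 : 100 * R * Real.log (w + 1) ≤ 100 * R * (2 * Real.log A) :=
    mul_le_mul_of_nonneg_left e2 (by linarith)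
  linarith

lemma pow_K {A q X w : ℝ} {K : ℕ} (hq : 1000 ≤ q) (hX : q / 2 ≤ X) (hw0 : 0 ≤ w)
    (hw : w * q ^ 60 ≤ A ^ 2) (hKq : 4 * A ^ 2 ≤ (q / 2) ^ K) : 4 * w ≤ X ^ K := by
  have e2 : w ≤ A ^ 2 := by
    have e3 : w * 1 ≤ w * q ^ 60 :=
      mul_le_mul_of_nonneg_left (one_le_pow₀ (by linarith)) hw0
    linarith
  calc 4 * w ≤ 4 * A ^ 2 := by linarith
    _ ≤ (q / 2) ^ K := hKq
    _ ≤ X ^ K := pow_le_pow_left₀ (by linarith) hX K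

lemma KZX {A q Z X K : ℝ} (hq : 1000 ≤ q) (hK0 : 0 ≤ K) (hqK : 1000 * K ≤ q)
    (hX0 : 0 ≤ X) (hX : X ≤ q) (hZ1 : 1 ≤ Z) (hZ : Z * q ^ 30 ≤ A) :
    100 * K * ((Z + 1) * X) ≤ A := by
  have e2 : (Z + 1) * X ≤ 2 * Z * q := mul_le_mul (by linarith) hX hX0 (by linarith)
  calc 100 * K * ((Z + 1) * X) ≤ 100 * K * (2 * Z * q) :=
        mul_le_mul_of_nonneg_left e2 (by linarith)
    _ = Z * (200 * K * q ^ 1) := by ring
    _ ≤ Z * q ^ 30 := mul_le_mul_of_nonneg_left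
        (q_mul (by linarith) _ 1 30 (by norm_num) (by linarith)) (by linarith)
    _ ≤ A := hZ

lemma ZX14 {A q Z X l2 : ℝ} (hA : 0 ≤ A) (hq : 1000 ≤ q) (hX0 : 0 ≤ X) (hX : X ≤ q)
    (hZ0 : 0 ≤ Z) (hZ : Z * q ^ 30 ≤ A) (hl2 : A * q ^ 79 ≤ l2) : Z * X ^ 14 ≤ l2 := by
  have hq1 : 1 ≤ q := by linarith
  calc Z * X ^ 14 ≤ Z * q ^ 14 := mul_le_mul_of_nonneg_left (pow_le_pow_left₀ hX0 hX 14) hZ0
    _ ≤ Z * q ^ 30 := mul_le_mul_of_nonneg_left (pow_le_pow_right₀ hq1 (by norm_num)) hZ0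
    _ ≤ A := hZ
    _ = A * 1 := by ring
    _ ≤ A * q ^ 79 := mul_le_mul_of_nonneg_left (one_le_pow₀ hq1) hA
    _ ≤ l2 := hl2

lemma ZX8 {A q Z X b : ℝ} (hA : 0 ≤ A) (hq : 1000 ≤ q) (hX0 : 0 ≤ X) (hX : X ≤ q)
    (hZ0 : 0 ≤ Z) (hZ : Z * q ^ 30 ≤ A) (hb : A * q ^ 80 ≤ b) : 3 * (Z * X ^ 8) ≤ b := by
  have hq1 : 1 ≤ q := by linarith
  calc 3 * (Z * X ^ 8) ≤ 3 * (Z * q ^ 30) := by
        apply mul_le_mul_of_nonneg_left _ (by norm_num)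
        exact mul_le_mul_of_nonneg_left ((pow_le_pow_left₀ hX0 hX 8).trans
          (pow_le_pow_right₀ hq1 (by norm_num))) hZ0
    _ ≤ 3 * A := by linarith
    _ = 3 * (A * q ^ 0) := by ring
    _ ≤ A * q ^ 80 := Aq_le hA hq1 _ 0 80 (by norm_num) (by linarith)
    _ ≤ b := hb

lemma X6 {A q X R lR cR w : ℝ} (hA : 0 ≤ A) (hq : 1000 ≤ q) (hR : 0 ≤ R) (hqR : 1000 * R ≤ q)
    (hX0 : 0 ≤ X) (hX : X ≤ q) (hc0 : 0 ≤ cR) (hlR0 : 0 ≤ lR) (hlR : lR ≤ cR)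
    (h2 : cR ≤ A * q ^ 16) (hw : 2 * (A * q ^ 79) ≤ w) : X ^ 6 * (R * lR + cR) ≤ w := by
  have hq1 : 1 ≤ q := by linarith
  have e3 : R * lR ≤ R * (A * q ^ 16) := mul_le_mul_of_nonneg_left (hlR.trans h2) hR
  calc X ^ 6 * (R * lR + cR) ≤ q ^ 6 * ((R + 1) * (A * q ^ 16)) :=
        mul_le_mul (pow_le_pow_left₀ hX0 hX 6) (by linarith) (by positivity) (by positivity)
    _ = (R + 1) * (A * q ^ 22) := by ring
    _ ≤ A * q ^ 79 := Aq_le hA hq1 _ 22 79 (by norm_num) (by linarith)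
    _ ≤ 2 * (A * q ^ 79) := by
        have : 0 ≤ A * q ^ 79 := by positivity
        linarith
    _ ≤ w := hw

/-- The numbers of the finite assembly, for an uncovered shape. Here `l1, l2, lR` are the rows
with (0-based) index `1, 2, R`, `cR` is the number of cells in the rows `≥ R`, and `w` is the
number of cells below the first row. -/
theorem num_core {A q : ℝ} {a b R K l1 l2 lR cR w : ℕ} (hA : A = a) (hR : 3 ≤ R)
    (hq1 : 4 * 10 ^ 6 * (R : ℝ) ^ 4 ≤ q) (hq2 : 1000 * (K : ℝ) ≤ q)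
    (hAq : q ^ 80 ≤ A) (hb : A * q ^ 80 ≤ b)
    (h1 : (b : ℝ) < R * l2 + cR + 3 * A) (h2 : (cR : ℝ) ≤ A * q ^ 16)
    (h3 : min (l1 : ℝ) (A ^ 2) * min (l2 : ℝ) (A ^ 2) < A ^ 3 * q ^ 11)
    (h4 : l2 ≤ l1) (h5 : lR ≤ cR) (h6 : w ≤ R * l1 + cR) (h7 : l1 + l2 ≤ w)
    (hKq : 4 * A ^ 2 ≤ (q / 2) ^ K) (hlog : 400 * R * Real.log A ≤ q) :
    ∃ X Z : ℕ, Z ^ 2 ≤ w ∧ w < (Z + 1) ^ 2 ∧ 16 * K + 16 ≤ X ∧ 10 ^ 6 * R ^ 4 ≤ X ∧
      X ^ 20 ≤ Z ∧ Z * X ^ 14 ≤ l2 ∧ X * a ≤ l2 ∧ 8 * lR ≤ l2 ∧ X ^ 6 * (R * lR + cR) ≤ w ∧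
      100 * (R : ℝ) * Real.log (w + 1) ≤ X ∧ 4 * w ≤ X ^ K ∧
      100 * K * ((Z + 1) * X) ≤ a ∧ 100 * a ≤ b ∧ 3 * (Z * X ^ 8) ≤ b := by
  have hR3 : (3 : ℝ) ≤ R := by exact_mod_cast hR
  have hR0 : (0 : ℝ) ≤ R := by linarith
  have hR4 : (81 : ℝ) ≤ (R : ℝ) ^ 4 := by
    calc (81 : ℝ) = 3 ^ 4 := by norm_num
      _ ≤ (R : ℝ) ^ 4 := pow_le_pow_left₀ (by norm_num) hR3 4
  have hRR : (R : ℝ) ≤ (R : ℝ) ^ 4 := by
    calc (R : ℝ) = (R : ℝ) ^ 1 := (pow_one _).symm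
      _ ≤ (R : ℝ) ^ 4 := pow_le_pow_right₀ (by linarith) (by norm_num)
  have hq : (1000 : ℝ) ≤ q := by linarith
  have hqR : 1000 * (R : ℝ) ≤ q := by linarith
  have hq1' : (1 : ℝ) ≤ q := by linarith
  have hA1 : 1 ≤ A := (one_le_pow₀ hq1').trans hAq
  have hA0 : 0 ≤ A := by linarith
  have hl2 := l2_ge hA1 hq hR0 hqR hb h1 h2
  have h4' : (l2 : ℝ) ≤ l1 := by exact_mod_cast h4
  have hl1 := l1_le hA1 hq hAq hl2 h4' h3
  have h6' : (w : ℝ) ≤ R * l1 + cR := by exact_mod_cast h6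
  have hw := w_le hA1 hq hqR hAq (Nat.cast_nonneg _) hl1 h2 h6'
  have hwl : 2 * (A * q ^ 79) ≤ w := by
    have e0 : (l1 : ℝ) + l2 ≤ w := by exact_mod_cast h7
    linarith
  obtain ⟨X, hX1, hX2⟩ : ∃ X : ℕ, (X : ℝ) ≤ q ∧ q / 2 ≤ X := by
    refine ⟨⌊q⌋₊, Nat.floor_le (by linarith), ?_⟩
    have := Nat.lt_floor_add_one q
    linarith
  obtain ⟨Z, hZ1, hZ2⟩ : ∃ Z : ℕ, Z ^ 2 ≤ w ∧ w < (Z + 1) ^ 2 :=
    ⟨Nat.sqrt w, Nat.sqrt_le' w, Nat.lt_succ_sqrt' w⟩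
  have hX0 : (0 : ℝ) ≤ X := Nat.cast_nonneg _
  have hZ0 : (0 : ℝ) ≤ Z := Nat.cast_nonneg _
  have hZq := Z_le hA1 hq (by exact_mod_cast hZ1 : (Z : ℝ) ^ 2 ≤ w) hw
  have hZl := Z_ge hA1 hq hAq hZ0 (by exact_mod_cast hZ2 : (w : ℝ) < ((Z : ℝ) + 1) ^ 2) hwl
  have hZ1' : (1 : ℝ) ≤ Z := (one_le_pow₀ hq1').trans hZl
  have hlRc : (lR : ℝ) ≤ cR := by exact_mod_cast h5
  have hw1 : (1 : ℝ) ≤ w := by
    have : (1 : ℝ) ≤ A * q ^ 79 := one_le_mul_of_one_le_of_one_le hA1 (one_le_pow₀ hq1')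
    linarith
  refine ⟨X, Z, hZ1, hZ2, ?_, ?_, ?_, ?_, ?_, ?_, ?_, ?_, ?_, ?_, ?_, ?_⟩
  · have e1 : ((16 * K + 16 : ℕ) : ℝ) ≤ X := by
      push_cast
      linarith
    exact_mod_cast e1
  · have e1 : ((10 ^ 6 * R ^ 4 : ℕ) : ℝ) ≤ X := by
      push_cast
      linarith
    exact_mod_cast e1
  · have e1 : ((X ^ 20 : ℕ) : ℝ) ≤ Z := by
      push_cast
      exact (pow_le_pow_left₀ hX0 hX1 20).trans ((pow_le_pow_right₀ hq1' (by norm_num)).trans hZl)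
    exact_mod_cast e1
  · exact_mod_cast ZX14 hA0 hq hX0 hX1 hZ0 hZq hl2
  · have e1 : ((X * a : ℕ) : ℝ) ≤ l2 := by
      push_cast
      rw [← hA]
      calc (X : ℝ) * A = X * (A * q ^ 0) := by ring
        _ ≤ A * q ^ 79 := Aq_le hA0 hq1' _ 0 79 (by norm_num) hX1
        _ ≤ l2 := hl2
    exact_mod_cast e1
  · have e1 : ((8 * lR : ℕ) : ℝ) ≤ l2 := by
      push_cast
      calc 8 * (lR : ℝ) ≤ 8 * (A * q ^ 16) := by linarith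
        _ ≤ A * q ^ 79 := Aq_le hA0 hq1' _ 16 79 (by norm_num) (by linarith)
        _ ≤ l2 := hl2
    exact_mod_cast e1
  · exact_mod_cast X6 hA0 hq hR0 hqR hX0 hX1 (Nat.cast_nonneg cR) (Nat.cast_nonneg lR) hlRc h2 hwl
  · exact log_le hq hR0 hX2 hw1 hw hlog
  · exact_mod_cast pow_K hq hX2 (Nat.cast_nonneg w) hw hKq
  · have e1 := KZX hq (Nat.cast_nonneg K) hq2 hX0 hX1 hZ1' hZq
    rw [hA] at e1
    exact_mod_cast e1
  · have e1 : ((100 * a : ℕ) : ℝ) ≤ b := by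
      push_cast
      rw [← hA]
      calc 100 * A = 100 * (A * q ^ 0) := by ring
        _ ≤ A * q ^ 80 := Aq_le hA0 hq1' _ 0 80 (by norm_num) (by linarith)
        _ ≤ b := hb
    exact_mod_cast e1
  · exact_mod_cast ZX8 hA0 hq hX0 hX1 hZ0 hZq hb

end Vale.Agent.P181.SZA2
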