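import Vale.Agent.P181.SZ.FinA
import Vale.Agent.P181.SZA2.Num
import Vale.Agent.P181.T7.Cells

set_option autoImplicit false

/-!
# P181, SZ, A2: from the finite assembly to the main theorem

The known classes of shapes enter as named hypotheses (`FewHyp`, `NatHyp`, `RowsHyp`).
-/

open Finset Filter

namespace Vale.Agent.P181.SZA2

open Vale.Agent.P181.T4 (ex low ex_of_lt ex_anti)
open Vale.Agent.P181.T7 (cells cells_pad PadStmt ZeroStmt)
open Vale.Agent.P181.H280 (plethMult)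
open Vale.Agent.P181.SZ (FinA MainS)

/-- few cells below the second row (`H310.WG.w_all 0`) -/
def FewHyp : Prop := ∀ (a b n : ℕ) (lam : Fin n → ℕ), cells 2 lam + 3 * a ≤ b →
  plethMult a b n lam ≤ plethMult b a n lam

/-- the product criterion (`H503.nat_all`) -/
def NatHyp : Prop := ∀ ε : ℝ, 0 < ε → ∃ C : ℝ, 1 ≤ C ∧ ∀ (a b n : ℕ) (lam : Fin n → ℕ),
  C * (a : ℝ) ^ (1 + ε) ≤ b →
  (∃ m : ℕ, C * (a : ℝ) ^ (1 + m * (1 + ε)) ≤
    ∏ i ∈ Finset.Ico 1 (m + 1), min (ex lam i : ℝ) ((a : ℝ) ^ 2)) →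
  plethMult a b n lam ≤ plethMult b a n lam

/-- few small rows, or many cells below some row (`Z.H310.rest`) -/
def RowsHyp : Prop := ∀ (n : ℕ) (ε : ℝ), 0 < ε → ∃ C : ℝ, ∀ a b : ℕ,
  C * (a : ℝ) ^ (1 + ε) ≤ b → ∀ (m : ℕ) (lam : Fin m → ℕ),
    ((Finset.univ.filter fun i => 0 < lam i ∧ (lam i : ℝ) ≤ (a : ℝ) ^ (1 + ε)).card ≤ n ∨
      ∃ j : ℕ, 1 ≤ j ∧ C * (a : ℝ) ^ (1 + 1 / (j : ℝ) + ε) ≤
        ((∑ i : Fin m, if j ≤ (i : ℕ) then lam i else 0 : ℕ) : ℝ)) →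
    plethMult a b m lam ≤ plethMult b a m lam

/-- It is enough to treat partitions with positive rows. -/
theorem trim (hP : PadStmt) (hZ : ZeroStmt) {a b : ℕ}
    (h : ∀ (k : ℕ) (mu : Fin k → ℕ), Antitone mu → ∑ i, mu i = a * b → (∀ i, 0 < mu i) →
      plethMult a b k mu ≤ plethMult b a k mu) (N : ℕ) (lam : Fin N → ℕ) :
    plethMult a b N lam ≤ plethMult b a N lam := by
  by_cases hz : plethMult a b N lam = 0
  · rw [hz]
    exact Nat.zero_le _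
  obtain ⟨hanti, hsum, _⟩ := hZ a b N lam hz
  have hex : ∃ k, k = N ∨ ex lam k = 0 := ⟨N, Or.inl rfl⟩
  set k := Nat.find hex with hk
  have hkN : k ≤ N := Nat.find_min' hex (Or.inl rfl)
  have hpos : ∀ i, i < k → 0 < ex lam i := by
    intro i hi
    have h1 := Nat.find_min hex hi
    push Not at h1
    exact Nat.pos_of_ne_zero h1.2
  have hzero : ∀ i : Fin N, k ≤ (i : ℕ) → lam i = 0 := by
    intro i hi
    have h0 : k = N ∨ ex lam k = 0 := Nat.find_spec hex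
    rcases h0 with h1 | h1
    · exact absurd i.2 (by omega)
    · have h2 := ex_anti hanti hi
      rw [h1, ex_of_lt lam i.2] at h2
      exact Nat.le_zero.1 h2
  clear hk
  clear_value k
  obtain ⟨l, rfl⟩ := Nat.exists_eq_add_of_le hkN
  obtain ⟨mu, hmu⟩ : ∃ mu : Fin k → ℕ, mu = fun j => lam (Fin.castAdd l j) := ⟨_, rfl⟩
  have hlam' : lam = fun i : Fin (k + l) => if h : (i : ℕ) < k then mu ⟨i, h⟩ else 0 := by
    funext i
    by_cases hi : (i : ℕ) < k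
    · rw [dif_pos hi, hmu]
      rfl
    · rw [dif_neg hi]
      exact hzero i (by omega)
  have hmu1 : Antitone mu := by
    intro i j hij
    have hij' : (i : ℕ) ≤ j := hij
    rw [hmu]
    exact hanti (show Fin.castAdd l i ≤ Fin.castAdd l j from hij')
  have hmu2 : ∑ i, mu i = a * b := by
    rw [← hsum, Fin.sum_univ_add, hmu]
    have h2 : ∑ i : Fin l, lam (Fin.natAdd k i) = 0 := by
      apply Finset.sum_eq_zero
      intro i _
      exact hzero _ (by simp)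
    rw [h2, add_zero]
  have hmu3 : ∀ i, 0 < mu i := by
    intro i
    have h1 := hpos i i.2
    rw [ex_of_lt lam (show (i : ℕ) < k + l by omega)] at h1
    rw [hmu]
    exact h1
  rw [hlam', hP a b k l mu, hP b a k l mu]
  exact h k mu hmu1 hmu2 hmu3

lemma cells_succ {n : ℕ} (j : ℕ) (lam : Fin n → ℕ) :
    cells j lam = ex lam j + cells (j + 1) lam := by
  rw [← T7.below_cells, ← T7.below_cells]
  unfold T7.below
  rcases Nat.lt_or_ge j n with h | h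
  · rw [Finset.sum_eq_sum_Ico_succ_bot h]
  · rw [Finset.Ico_eq_empty (by omega), Finset.Ico_eq_empty (by omega), ex, dif_neg (by omega)]
    simp

lemma cells_le {n : ℕ} {lam : Fin n → ℕ} (h : Antitone lam) (i d : ℕ) :
    cells i lam ≤ d * ex lam i + cells (i + d) lam := by
  induction d with
  | zero => simp
  | succ d ih =>
    have h1 := cells_succ (i + d) lam
    have h2 : ex lam (i + d) ≤ ex lam i := ex_anti h (by omega)
    rw [show i + (d + 1) = i + d + 1 by ring]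
    nlinarith

lemma sum_low {n R : ℕ} (lam : Fin n → ℕ) :
    ∑ i, low R lam i = cells R lam := by
  rw [← T7.below_cells]
  unfold low T7.below
  rw [Finset.sum_Ico_eq_sum_range, Finset.sum_range]

/-- One pair `(a, b)` and one shape, with explicit numbers. -/
theorem one_shape (hFin : FinA) {a b n R K : ℕ} {q : ℝ} (lam : Fin n → ℕ) (hanti : Antitone lam)
    (hsum : ∑ i, lam i = a * b) (hpos : ∀ i, 0 < lam i) (hR : 3 ≤ R) (hRn : R < n) (hK : 1 ≤ K)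
    (hq1 : 4 * 10 ^ 6 * (R : ℝ) ^ 4 ≤ q) (hq2 : 1000 * (K : ℝ) ≤ q)
    (hAq : q ^ 80 ≤ (a : ℝ)) (hb : (a : ℝ) * q ^ 80 ≤ b)
    (h1 : b < cells 2 lam + 3 * a) (h2 : (cells R lam : ℝ) ≤ a * q ^ 16)
    (h3 : min (ex lam 1 : ℝ) ((a : ℝ) ^ 2) * min (ex lam 2 : ℝ) ((a : ℝ) ^ 2) <
      (a : ℝ) ^ 3 * q ^ 11)
    (hKq : 4 * (a : ℝ) ^ 2 ≤ (q / 2) ^ K) (hlog : 400 * R * Real.log a ≤ q) :
    plethMult a b n lam ≤ plethMult b a n lam := by
  have c2 := cells_le hanti 2 (R - 2)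
  have c1 := cells_le hanti 1 (R - 1)
  rw [show 2 + (R - 2) = R by omega] at c2
  rw [show 1 + (R - 1) = R by omega] at c1
  have c2' : cells 2 lam ≤ R * ex lam 2 + cells R lam :=
    c2.trans (Nat.add_le_add_right (Nat.mul_le_mul_right _ (by omega)) _)
  have c1' : cells 1 lam ≤ R * ex lam 1 + cells R lam :=
    c1.trans (Nat.add_le_add_right (Nat.mul_le_mul_right _ (by omega)) _)
  have h1' : (b : ℝ) < R * ex lam 2 + cells R lam + 3 * a := by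
    have : b < R * ex lam 2 + cells R lam + 3 * a := by omega
    exact_mod_cast this
  have h5 : ex lam R ≤ cells R lam := by
    have := cells_succ R lam
    omega
  have h7 : ex lam 1 + ex lam 2 ≤ cells 1 lam := by
    have e1 : cells 1 lam = ex lam 1 + cells 2 lam := cells_succ 1 lam
    have e2 : cells 2 lam = ex lam 2 + cells 3 lam := cells_succ 2 lam
    omega
  obtain ⟨X, Z, e1, e2, e3, e4, e5, e6, e7, e8, e9, e10, e11, e12, e13, e14⟩ :=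
    num_core (A := (a : ℝ)) (K := K) rfl hR hq1 hq2 hAq hb h1' h2 h3 (ex_anti hanti (by norm_num))
      h5 c1' h7 hKq hlog
  refine hFin a b n R X Z K (cells 1 lam) lam hanti hsum hpos hR hRn rfl e1 e2 hK e3 e4 e5 e6 e7
    e8 ?_ e10 e11 e12 e13 e14
  rw [sum_low]
  exact e9

lemma ev_ge (c C : ℝ) (hc : 0 < c) : ∀ᶠ a : ℕ in atTop, C ≤ (a : ℝ) ^ c := by
  have h1 : Tendsto (fun a : ℕ => (a : ℝ) ^ c) atTop atTop :=
    (tendsto_rpow_atTop hc).comp tendsto_natCast_atTop_atTop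
  exact h1.eventually_ge_atTop C

lemma ev_log (c M : ℝ) (hc : 0 < c) (hM : 0 < M) :
    ∀ᶠ a : ℕ in atTop, M * Real.log a ≤ (a : ℝ) ^ c := by
  have h1 := (isLittleO_log_rpow_atTop hc).bound (show 0 < M⁻¹ by positivity)
  have h2 := tendsto_natCast_atTop_atTop (R := ℝ) |>.eventually h1
  filter_upwards [h2, eventually_ge_atTop 1] with a ha ha1
  have hA : (1 : ℝ) ≤ a := by exact_mod_cast ha1
  rw [Real.norm_of_nonneg (Real.log_nonneg hA), Real.norm_of_nonneg (by positivity)] at ha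
  calc M * Real.log a ≤ M * (M⁻¹ * (a : ℝ) ^ c) := mul_le_mul_of_nonneg_left ha hM.le
    _ = (a : ℝ) ^ c := by field_simp

/-- the powers of `q = A ^ δ` -/
lemma rpow_q {A δ : ℝ} (hA : 0 < A) (i : ℕ) : (A ^ δ) ^ i = A ^ (i * δ) := by
  rw [← Real.rpow_natCast, ← Real.rpow_mul hA.le]
  congr 1
  ring

lemma Aq_rpow {A δ : ℝ} (hA : 0 < A) (k i : ℕ) : A ^ k * (A ^ δ) ^ i = A ^ (k + i * δ) := by
  rw [rpow_q hA, Real.rpow_add hA, Real.rpow_natCast]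

/-- **The main theorem of SZ from the finite assembly and the known classes.** -/
theorem main_of (hFew : FewHyp) (hNat : NatHyp) (hRows : RowsHyp) (hP : PadStmt) (hZ : ZeroStmt)
    (hFin : FinA) : MainS := by
  intro ε hε
  obtain ⟨e, he0, heε, he1⟩ : ∃ e : ℝ, 0 < e ∧ e ≤ ε ∧ e ≤ 1 :=
    ⟨min ε 1, lt_min hε one_pos, min_le_left _ _, min_le_right _ _⟩
  obtain ⟨δ, hδ⟩ : ∃ δ : ℝ, δ = e / 80 := ⟨_, rfl⟩
  have hδ0 : 0 < δ := by rw [hδ]; positivity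
  have he80 : e = 80 * δ := by rw [hδ]; ring
  obtain ⟨R, hR3, hRe⟩ : ∃ R : ℕ, 3 ≤ R ∧ 1 / (10 * δ) ≤ R := by
    obtain ⟨R, hR⟩ := exists_nat_ge (1 / (10 * δ))
    exact ⟨R + 3, by omega, hR.trans (by push_cast; linarith)⟩
  have hR0 : (0 : ℝ) < R := by
    have : (3 : ℝ) ≤ R := by exact_mod_cast hR3
    linarith
  have hRinv : 1 / (R : ℝ) ≤ 10 * δ := by
    rw [div_le_iff₀ (by positivity)] at hRe
    rw [div_le_iff₀ hR0]
    linarith
  obtain ⟨K, hK1, hKe⟩ : ∃ K : ℕ, 1 ≤ K ∧ 3 ≤ K * δ := by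
    obtain ⟨K, hK⟩ := exists_nat_ge (3 / δ)
    rw [div_le_iff₀ hδ0] at hK
    refine ⟨K + 1, by omega, hK.trans ?_⟩
    push_cast
    nlinarith
  obtain ⟨C₂, -, h2⟩ := hNat (5 * δ) (by positivity)
  obtain ⟨C₃, h3⟩ := hRows R (5 * δ) (by positivity)
  filter_upwards [ev_ge δ (4 * 10 ^ 6 * (R : ℝ) ^ 4) hδ0, ev_ge δ (1000 * (K : ℝ)) hδ0,
    ev_ge δ C₂ hδ0, ev_ge δ C₃ hδ0, ev_log δ (400 * R) hδ0 (by positivity),
    eventually_ge_atTop (4 * 2 ^ K)] with a hq1 hq2 hqC2 hqC3 hlog haK b hb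
  have ha1 : 1 ≤ a := by
    have : 0 < 4 * 2 ^ K := by positivity
    omega
  have hA : (1 : ℝ) ≤ a := by exact_mod_cast ha1
  have hA0 : (0 : ℝ) < a := by linarith
  obtain ⟨q, hq⟩ : ∃ q : ℝ, q = (a : ℝ) ^ δ := ⟨_, rfl⟩
  have hq1' : 1 ≤ q := by
    rw [hq]
    exact Real.one_le_rpow hA hδ0.le
  have hAp : ∀ k i : ℕ, (a : ℝ) ^ ((k : ℝ) + i * δ) = (a : ℝ) ^ k * q ^ i := fun k i => by
    rw [hq, Aq_rpow hA0]
  have hAq : q ^ 80 ≤ (a : ℝ) := by
    calc q ^ 80 = (a : ℝ) ^ (((0 : ℕ) : ℝ) + (80 : ℕ) * δ) := by rw [hAp, pow_zero, one_mul]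
      _ ≤ (a : ℝ) ^ (1 : ℝ) := Real.rpow_le_rpow_of_exponent_le hA (by push_cast; linarith)
      _ = a := Real.rpow_one _
  have hbq : (a : ℝ) * q ^ 80 ≤ b := by
    calc (a : ℝ) * q ^ 80 = (a : ℝ) ^ (((1 : ℕ) : ℝ) + (80 : ℕ) * δ) := by rw [hAp, pow_one]
      _ ≤ (a : ℝ) ^ (1 + ε) := Real.rpow_le_rpow_of_exponent_le hA (by push_cast; linarith)
      _ ≤ b := hb
  have hp0 : ∀ i : ℕ, 0 < q ^ i := fun i => by positivity
  have hAi : ∀ i : ℕ, i ≤ 80 → (a : ℝ) * q ^ i ≤ b := fun i hi =>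
    (mul_le_mul_of_nonneg_left (pow_le_pow_right₀ hq1' hi) hA0.le).trans hbq
  have hC5 : ∀ C : ℝ, C ≤ (a : ℝ) ^ δ → C * (a : ℝ) ^ (1 + 5 * δ) ≤ b := by
    intro C hC
    have e1 : (a : ℝ) ^ (1 + 5 * δ) = a * q ^ 5 := by
      have := hAp 1 5
      rw [pow_one] at this
      rw [← this]
      norm_num
    rw [e1]
    rw [← hq] at hC
    calc C * (a * q ^ 5) ≤ q * (a * q ^ 5) := mul_le_mul_of_nonneg_right hC (by positivity)
      _ = a * q ^ 6 := by ring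
      _ ≤ b := hAi 6 (by norm_num)
  have hKq : 4 * (a : ℝ) ^ 2 ≤ (q / 2) ^ K := by
    have e1 : (a : ℝ) ^ 3 ≤ q ^ K := by
      calc (a : ℝ) ^ 3 = (a : ℝ) ^ ((3 : ℕ) : ℝ) := (Real.rpow_natCast _ _).symm
        _ ≤ (a : ℝ) ^ ((K : ℝ) * δ) :=
          Real.rpow_le_rpow_of_exponent_le hA (by push_cast; linarith)
        _ = q ^ K := by rw [hq, rpow_q hA0]
    have e2 : (4 : ℝ) * 2 ^ K ≤ a := by exact_mod_cast haK
    rw [div_pow, le_div_iff₀ (by positivity)]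
    calc 4 * (a : ℝ) ^ 2 * 2 ^ K = (a : ℝ) ^ 2 * (4 * 2 ^ K) := by ring
      _ ≤ (a : ℝ) ^ 2 * a := mul_le_mul_of_nonneg_left e2 (by positivity)
      _ = (a : ℝ) ^ 3 := by ring
      _ ≤ q ^ K := e1
  refine trim hP hZ ?_
  intro n lam hanti hsum hpos
  -- few cells below the second row
  rcases Nat.lt_or_ge b (cells 2 lam + 3 * a) with h2c | h2c
  swap
  · exact hFew a b n lam h2c
  -- few rows
  rcases Nat.lt_or_ge R n with hRn | hRn
  swap
  · refine h3 a b (hC5 C₃ hqC3) n lam (Or.inl ?_)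
    refine (Finset.card_le_univ _).trans ?_
    rwa [Fintype.card_fin]
  -- many cells below the row `R`
  rcases le_or_gt (C₃ * (a : ℝ) ^ (1 + 1 / (R : ℝ) + 5 * δ)) (cells R lam) with hcR | hcR
  · exact h3 a b (hC5 C₃ hqC3) n lam (Or.inr ⟨R, by omega, hcR⟩)
  have hcR' : (cells R lam : ℝ) ≤ a * q ^ 16 := by
    have e1 : (a : ℝ) ^ (1 + 1 / (R : ℝ) + 5 * δ) ≤ a * q ^ 15 := by
      calc (a : ℝ) ^ (1 + 1 / (R : ℝ) + 5 * δ) ≤ (a : ℝ) ^ (((1 : ℕ) : ℝ) + (15 : ℕ) * δ) :=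
            Real.rpow_le_rpow_of_exponent_le hA (by push_cast; linarith)
        _ = a * q ^ 15 := by rw [hAp, pow_one]
    rw [← hq] at hqC3
    calc (cells R lam : ℝ) ≤ C₃ * (a : ℝ) ^ (1 + 1 / (R : ℝ) + 5 * δ) := hcR.le
      _ ≤ q * (a : ℝ) ^ (1 + 1 / (R : ℝ) + 5 * δ) :=
        mul_le_mul_of_nonneg_right hqC3 (by positivity)
      _ ≤ q * (a * q ^ 15) := mul_le_mul_of_nonneg_left e1 (by linarith)
      _ = a * q ^ 16 := by ring
  -- the product criterion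
  rcases le_or_gt (C₂ * (a : ℝ) ^ (1 + ((2 : ℕ) : ℝ) * (1 + 5 * δ)))
    (∏ i ∈ Finset.Ico 1 (2 + 1), min (ex lam i : ℝ) ((a : ℝ) ^ 2)) with hpr | hpr
  · exact h2 a b n lam (hC5 C₂ hqC2) ⟨2, hpr⟩
  have hpr' : min (ex lam 1 : ℝ) ((a : ℝ) ^ 2) * min (ex lam 2 : ℝ) ((a : ℝ) ^ 2) <
      (a : ℝ) ^ 3 * q ^ 11 := by
    rw [Finset.prod_Ico_succ_top (by norm_num), Finset.prod_Ico_succ_top (by norm_num),
      Finset.Ico_self, Finset.prod_empty, one_mul] at hpr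
    refine hpr.trans_le ?_
    rw [← hq] at hqC2
    calc C₂ * (a : ℝ) ^ (1 + ((2 : ℕ) : ℝ) * (1 + 5 * δ))
        ≤ q * (a : ℝ) ^ (1 + ((2 : ℕ) : ℝ) * (1 + 5 * δ)) :=
          mul_le_mul_of_nonneg_right hqC2 (by positivity)
      _ = q * (a : ℝ) ^ (((3 : ℕ) : ℝ) + (10 : ℕ) * δ) := by
          congr 2
          push_cast
          ring
      _ = q * ((a : ℝ) ^ 3 * q ^ 10) := by rw [hAp]
      _ = (a : ℝ) ^ 3 * q ^ 11 := by ring
  rw [← hq] at hq1 hq2 hlog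
  exact one_shape hFin lam hanti hsum hpos hR3 hRn hK1 hq1 hq2 hAq hbq h2c hcR' hpr' hKq hlog

end Vale.Agent.P181.SZA2
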