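import Vale.Agent.P181.SZA2.Main
import Vale.Agent.P181.H503.NatAll
import Vale.Agent.P181.H310.WReal
import Vale.Agent.P181.Z.H310.BR2

set_option autoImplicit false

/-!
# P181, SZ, A2: the main theorem from the finite assembly, no other hypothesis
-/

namespace Vale.Agent.P181.SZA2

open Vale.Agent.P181.T7 (cells)
open Vale.Agent.P181.SZ (FinA MainS)

theorem few_hyp : FewHyp := by
  intro a b n lam h
  apply H310.WG.w_all 0 lam
  have h4 : ((cells 2 lam + 3 * a : ℕ) : ℝ) ≤ b := by exact_mod_cast h
  push_cast at h4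
  simpa using h4

theorem nat_hyp : NatHyp := fun ε hε => H503.nat_all ε hε

theorem rows_hyp : RowsHyp := by
  intro n ε hε
  obtain ⟨C, hC⟩ := Z.H310.rest n ε hε
  exact ⟨C, fun a b => (hC a b).1⟩

/-- **(A2)** the main theorem from the finite assembly. -/
theorem main_of_fin : FinA → MainS :=
  main_of few_hyp nat_hyp rows_hyp H530.pad_stmt H530.zero_stmt

end Vale.Agent.P181.SZA2
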